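import Vale.Agent.P106.W315.Core
import Vale.Agent.P122.S.Crude

/-! # P106 / W : the crude bound [CRUDE] on the truncated cone, price `N` (helper315) -/

set_option autoImplicit false

namespace Vale.Agent.P106.W315

open Vale.Agent.P106.W
open Vale.Agent.P122.C2 (Z2 kids Cap fw fn)
open Vale.Agent.P122.S (kids_div kids_cap kids_card)

/-- the fibres of `(S, τ') ↦ (S.sg n).ch n h i τ'` -/
theorem fiber_card (n h i : ℕ) (U : Finset Nd) (N : Nd) :
    ((U.sigma fun S => kids n S.b.τ).filter fun p => (p.1.sg n).ch n h i p.2 = N).card ≤ 2 ^ (4 * n) := by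
  classical
  set P := (U.sigma fun S => kids n S.b.τ).filter fun p => (p.1.sg n).ch n h i p.2 = N with hP
  let r : (Σ _ : Nd, Z2) → ℤ × ℤ × ℤ := fun p => (p.1.b.o 0 % 2 ^ n, p.1.b.o 1 % 2 ^ n, p.1.b.T % 2 ^ (2 * n))
  have hmap : ∀ p ∈ P, r p ∈ (Finset.Ico (0:ℤ) (2 ^ n)) ×ˢ ((Finset.Ico (0:ℤ) (2 ^ n)) ×ˢ (Finset.Ico (0:ℤ) (2 ^ (2 * n)))) := by
    intro p _
    simp only [r, Finset.mem_product, Finset.mem_Ico]
    exact ⟨⟨Int.emod_nonneg _ (by positivity), Int.emod_lt_of_pos _ (by positivity)⟩,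
      ⟨Int.emod_nonneg _ (by positivity), Int.emod_lt_of_pos _ (by positivity)⟩,
      ⟨Int.emod_nonneg _ (by positivity), Int.emod_lt_of_pos _ (by positivity)⟩⟩
  have hinj : Set.InjOn r P := by
    rintro ⟨S, t⟩ hp ⟨S', t'⟩ hq he
    rw [Finset.mem_coe, hP, Finset.mem_filter, Finset.mem_sigma] at hp hq
    obtain ⟨⟨_, hp1⟩, hp2⟩ := hp
    obtain ⟨⟨_, hq1⟩, hq2⟩ := hq
    simp only at hp1 hq1 hp2 hq2
    have h0 : (S.sg n).ch n h i t = (S'.sg n).ch n h i t' := hp2.trans hq2.symm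
    simp only [r, Prod.mk.injEq] at he
    obtain ⟨e0, e1, e2⟩ := he
    have ht : t = t' := congrArg (fun q : Nd => q.b.τ) h0
    subst ht
    have hT : S.b.T / 2 ^ (2 * n) = S'.b.T / 2 ^ (2 * n) := congrArg (fun q : Nd => q.b.T) h0
    have hT' : S.b.T = S'.b.T := by
      rw [← Int.mul_ediv_add_emod S.b.T (2 ^ (2 * n)), ← Int.mul_ediv_add_emod S'.b.T (2 ^ (2 * n)), hT, e2]
    have ho : ∀ k, S.b.o k / 2 ^ n = S'.b.o k / 2 ^ n := by
      intro k
      have h1 := congrArg (fun q : Nd => q.b.o k) h0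
      have : ⌊((S.b.o k / 2 ^ n : ℤ) : ℝ) - ((S.b.T % 2 ^ (2 * n) : ℤ) : ℝ) * 2 ^ (2 * i * n) * s0 n (i + 1) t k / 2 ^ ((i + 1) * n)⌋ =
          ⌊((S'.b.o k / 2 ^ n : ℤ) : ℝ) - ((S'.b.T % 2 ^ (2 * n) : ℤ) : ℝ) * 2 ^ (2 * i * n) * s0 n (i + 1) t k / 2 ^ ((i + 1) * n)⌋ := h1
      rw [hT', sub_eq_add_neg, sub_eq_add_neg, Int.floor_intCast_add, Int.floor_intCast_add] at this
      omega
    have ho' : S.b.o = S'.b.o := by
      funext k
      fin_cases k
      · have := ho 0
        show S.b.o 0 = S'.b.o 0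
        rw [← Int.mul_ediv_add_emod (S.b.o 0) (2 ^ n), ← Int.mul_ediv_add_emod (S'.b.o 0) (2 ^ n), this, e0]
      · have := ho 1
        show S.b.o 1 = S'.b.o 1
        rw [← Int.mul_ediv_add_emod (S.b.o 1) (2 ^ n), ← Int.mul_ediv_add_emod (S'.b.o 1) (2 ^ n), this, e1]
    have hτ : S.b.τ = S'.b.τ := by
      funext k
      rw [← kids_div hp1 k, ← kids_div hq1 k]
    have hb : S.b = S'.b := by
      ext1 <;> assumption
    have hw : S.w = S'.w := by
      have h1 := congrArg (fun q : Nd => q.w) h0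
      have h2 : ⌊(S.w : ℝ) + tl n h (S.b.sg n) t⌋ = ⌊(S'.w : ℝ) + tl n h (S'.b.sg n) t⌋ := h1
      rw [hb, Int.floor_intCast_add, Int.floor_intCast_add] at h2
      omega
    have : S = S' := by
      ext1 <;> assumption
    subst this
    rfl
  refine (Finset.card_le_card_of_injOn r hmap hinj).trans ?_
  rw [Finset.card_product, Finset.card_product]
  simp only [Int.card_Ico, sub_zero]
  have h1 : ((2 : ℤ) ^ n).toNat = 2 ^ n := by
    have : (2 : ℤ) ^ n = ((2 ^ n : ℕ) : ℤ) := by push_cast; rfl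
    rw [this, Int.toNat_natCast]
  have h2 : ((2 : ℤ) ^ (2 * n)).toNat = 2 ^ (2 * n) := by
    have : (2 : ℤ) ^ (2 * n) = ((2 ^ (2 * n) : ℕ) : ℤ) := by push_cast; rfl
    rw [this, Int.toNat_natCast]
  rw [h1, h2]
  apply le_of_eq
  rw [show 4 * n = n + (n + 2 * n) by ring, pow_add, pow_add]

/-- the box of one plank -/
theorem ktop_le {C : ℝ} (hC : 1 ≤ C) {n h K : ℕ} {F : Amp C n h K} {Λ : ℝ} (hΛ : KTop F Λ) (S : Nd) : F.a K S ^ 2 ≤ Λ := by
  set r : ℝ := (1 / 2 : ℝ) ^ (K * n) with hr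
  have hr0 : 0 < r := by positivity
  have hr1 : r ≤ 1 := pow_le_one₀ (by norm_num) (by norm_num)
  set H : ℝ := hh n h K with hH
  have hH0 : 0 < H := by unfold hh at hH; rw [hH]; positivity
  have hrH : r ^ 2 / H ≤ 1 := by
    rw [div_le_one hH0, hH, hr]
    unfold hh
    rw [← pow_mul, one_div, inv_pow, show K * n * 2 = 2 * K * n by ring, inv_eq_one_div]
    gcongr
    exact one_le_pow₀ (by norm_num)
  have h1 := hΛ ⟨0, r, r, 0, 0, ry n K S, s0 n K S.b.τ, rz n h K S⟩ {S} ⟨le_rfl, le_rfl, hr1, by simp; positivity, by simp; positivity,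
    by simp [hr0.le], by simp [hr0.le]⟩ ?_
  · rw [Finset.sum_singleton] at h1
    have h2 : Cbx.vol ⟨0, r, r, 0, 0, ry n K S, s0 n K S.b.τ, rz n h K S⟩ r H = 1 := by
      unfold Cbx.vol
      simp only
      rw [max_eq_left hrH]
      field_simp
    rw [h2, mul_one] at h1
    exact h1
  · intro S' hS'
    rw [Finset.mem_singleton] at hS'
    subst hS'
    unfold InB Cbx.In
    simp only
    refine ⟨fun k => by simp [hr0.le], fun k => by simp [hr0.le], ?_, ?_, ?_⟩
    · simp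
      exact Or.inl (sq_nonneg _)
    · simp [fn, hr0.le]
    · simp [fn, hr0.le]

theorem crude {N : ℝ} (hN : 0 < N) : StCRUDE N := by
  classical
  intro K h C n hC
  set q : ℝ := 2 + 2 / N with hq
  have hN2 : 0 < 2 / N := by positivity
  have hq1 : 1 ≤ q := by linarith
  have hq0 : 0 ≤ q := by linarith
  set D : ℝ := C ^ q * ((2 ^ (2 * n) : ℕ) : ℝ) ^ (q - 1) with hD
  have hD0 : 0 ≤ D := by positivity
  refine ⟨(D * 2 ^ (4 * n)) ^ K, by positivity, fun F Λ Q hΛ0 hΛ hQ X hX => ?_⟩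
  have hQ0 : 0 ≤ Q := by simpa using hQ ∅
  have hL0 : 0 ≤ Λ ^ (1 / N) := Real.rpow_nonneg hΛ0 _
  have key : ∀ j : ℕ, j ≤ K → ∀ U : Finset Nd, (∀ S ∈ U, Cap n (K - j) S.b.τ) →
      ∑ S ∈ U, F.a (K - j) S ^ q ≤ (D * 2 ^ (4 * n)) ^ j * (Λ ^ (1 / N) * Q) := by
    intro j
    induction j with
    | zero =>
      intro _ U _
      rw [pow_zero, one_mul, Nat.sub_zero]
      calc ∑ S ∈ U, F.a K S ^ q ≤ ∑ S ∈ U, Λ ^ (1 / N) * F.a K S ^ 2 := by
            apply Finset.sum_le_sum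
            intro S _
            have h1 : F.a K S ^ 2 ≤ Λ := ktop_le hC hΛ S
            have h2 : F.a K S ^ q = (F.a K S ^ 2) ^ (1 / N) * F.a K S ^ 2 := by
              rcases (F.a0 K S).eq_or_lt with h0 | h0
              · rw [← h0, Real.zero_rpow (by linarith)]
                simp
              · rw [hq, Real.rpow_add h0, mul_comm, Real.rpow_two]
                congr 1
                rw [← Real.rpow_natCast, ← Real.rpow_mul h0.le]
                congr 1
                push_cast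
                ring
            rw [h2]
            have h3 : (F.a K S ^ 2) ^ (1 / N) ≤ Λ ^ (1 / N) := Real.rpow_le_rpow (sq_nonneg _) h1 (by positivity)
            gcongr
        _ = Λ ^ (1 / N) * ∑ S ∈ U, F.a K S ^ 2 := by rw [Finset.mul_sum]
        _ ≤ Λ ^ (1 / N) * Q := by gcongr; exact hQ U
    | succ j ih =>
      intro hj U hU
      have hi : K - (j + 1) < K := by omega
      have hi1 : K - (j + 1) + 1 = K - j := by omega
      set i := K - (j + 1) with hidef
      have hstep : ∀ S ∈ U, F.a i S ^ q ≤ D *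
          ∑ τ' ∈ kids n S.b.τ, F.a (K - j) ((S.sg n).ch n h i τ') ^ q := by
        intro S hS
        have h1 : F.a i S ≤ C * ∑ τ' ∈ kids n S.b.τ, F.a (K - j) ((S.sg n).ch n h i τ') := by
          have := (F.kid i S hi (hU S hS)).trans (F.L1 i S _ hi (hU S hS) (Finset.Subset.refl _))
          rwa [hi1] at this
        have h0 : 0 ≤ ∑ τ' ∈ kids n S.b.τ, F.a (K - j) ((S.sg n).ch n h i τ') := Finset.sum_nonneg fun _ _ => F.a0 _ _
        have h2 : (∑ τ' ∈ kids n S.b.τ, F.a (K - j) ((S.sg n).ch n h i τ')) ^ q ≤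
            ((2 ^ (2 * n) : ℕ) : ℝ) ^ (q - 1) * ∑ τ' ∈ kids n S.b.τ, F.a (K - j) ((S.sg n).ch n h i τ') ^ q := by
          have h3 := Real.rpow_sum_le_const_mul_sum_rpow_of_nonneg (s := kids n S.b.τ)
            (f := fun τ' => F.a (K - j) ((S.sg n).ch n h i τ')) hq1 (fun _ _ => F.a0 _ _)
          rwa [kids_card] at h3
        calc F.a i S ^ q ≤ (C * ∑ τ' ∈ kids n S.b.τ, F.a (K - j) ((S.sg n).ch n h i τ')) ^ q :=
              Real.rpow_le_rpow (F.a0 _ _) h1 hq0
          _ = C ^ q * (∑ τ' ∈ kids n S.b.τ, F.a (K - j) ((S.sg n).ch n h i τ')) ^ q :=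
              Real.mul_rpow (by linarith) h0
          _ ≤ C ^ q * (((2 ^ (2 * n) : ℕ) : ℝ) ^ (q - 1) *
                ∑ τ' ∈ kids n S.b.τ, F.a (K - j) ((S.sg n).ch n h i τ') ^ q) := by
              gcongr
          _ = _ := by rw [hD]; ring
      have hcap : ∀ M ∈ (U.sigma fun S => kids n S.b.τ).image (fun p => (p.1.sg n).ch n h i p.2),
          Cap n (K - j) M.b.τ := by
        intro M hM
        obtain ⟨p, hp, rfl⟩ := Finset.mem_image.1 hM
        rw [Finset.mem_sigma] at hp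
        have := kids_cap (hU _ hp.1) hp.2
        rwa [hi1] at this
      calc ∑ S ∈ U, F.a i S ^ q ≤ ∑ S ∈ U, D *
            ∑ τ' ∈ kids n S.b.τ, F.a (K - j) ((S.sg n).ch n h i τ') ^ q := Finset.sum_le_sum fun S hS => hstep S hS
        _ = D * ∑ p ∈ U.sigma fun S => kids n S.b.τ,
              F.a (K - j) ((p.1.sg n).ch n h i p.2) ^ q := by
            rw [← Finset.mul_sum, Finset.sum_sigma]
        _ ≤ D * (2 ^ (4 * n) * ((D * 2 ^ (4 * n)) ^ j * (Λ ^ (1 / N) * Q))) := by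
            gcongr
            have e := Finset.sum_comp (s := U.sigma fun S => kids n S.b.τ) (fun M : Nd => F.a (K - j) M ^ q)
              (fun p => (p.1.sg n).ch n h i p.2)
            rw [e]
            refine (Finset.sum_le_sum (g := fun M => (2 ^ (4 * n) : ℝ) * F.a (K - j) M ^ q) ?_).trans ?_
            · intro M _
              rw [nsmul_eq_mul]
              have h3 : 0 ≤ F.a (K - j) M ^ q := Real.rpow_nonneg (F.a0 _ _) _
              have h4 := fiber_card n h i U M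
              have h5 : ((((U.sigma fun S => kids n S.b.τ).filter fun p => (p.1.sg n).ch n h i p.2 = M).card : ℕ) : ℝ) ≤
                  2 ^ (4 * n) := by
                exact_mod_cast h4
              exact mul_le_mul_of_nonneg_right h5 h3
            · rw [← Finset.mul_sum]
              gcongr
              exact ih (by omega) _ hcap
        _ = _ := by rw [pow_succ]; ring
  have h := key K le_rfl X (by
    intro x hx k
    rw [Nat.sub_self, (hX x hx).1]
    simp)
  rw [Nat.sub_self] at h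
  refine h.trans ?_
  have h1 : (1 : ℝ) ≤ 2 ^ (4 * K * n) := one_le_pow₀ (by norm_num)
  have h2 : 0 ≤ (D * 2 ^ (4 * n)) ^ K * Λ ^ (1 / N) * Q := by positivity
  nlinarith

end Vale.Agent.P106.W315
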