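import Vale.Agent.P106.W.Defs
import Vale.Agent.P106.W518.RVA

/-! # P106 / W : composition of [CORE] on the truncated cone, price `N` (helper315)

`W.StCORE N` from 518's real variable part `StRVA`, the profile `StPROF N` (= [RG] + [EN] from the conformal Kakeya
inequality with price `N`) and the crude bound `StCRUDE N` for bounded `n`. -/

set_option autoImplicit false

namespace Vale.Agent.P106.W315

open Vale.Agent.P106.W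
open Vale.Agent.P106.W518 (ProfA StRVA)

/-- a violation of `StCORE N` (with constant `1`) at a large `n` gives a profile (windows at most `w`, `2 w K ≤ h ≤ δ K`)
which violates the real variable inequality with `A = N + 1` -/
def StPROF (N : ℝ) : Prop := ∃ (C0 κ : ℝ), 1 ≤ C0 ∧ 0 < κ ∧ κ ≤ 1 ∧ ∀ (δ w c1 : ℝ), 0 < δ → δ ≤ 1 → 0 < w → 0 < c1 → c1 ≤ w →
  ∃ K1 : ℕ, 1 ≤ K1 ∧ ∀ K h : ℕ, K1 ≤ K → 2 ≤ h → 2 * w * K ≤ h → (h : ℝ) ≤ δ * K → ∀ C : ℝ, 1 ≤ C →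
  ∃ n0 : ℕ, ∀ n : ℕ, n0 ≤ n → ∀ (F : Amp C n h K) (Λ Q : ℝ), 0 ≤ Λ → KTop F Λ → (∀ U : Finset Nd, ∑ S ∈ U, F.a K S ^ 2 ≤ Q) →
  ∀ X : Finset Nd, (∀ x ∈ X, x.b.τ = 0 ∧ 0 ≤ x.b.T ∧ x.b.T < 2 ^ (2 * K * n)) →
    2 ^ (δ * (K * n)) * Λ ^ (1 / N) * 2 ^ (4 * K * n) * Q < ∑ x ∈ X, F.a 0 x ^ (2 + 2 / N) →
    ∃ V E M m α g : ℕ → ℝ, ProfA (N + 1) w C0 κ c1 K V E M m α g ∧ V 0 + (N + 1) * E K + δ ≤ V K

/-- the crude bound, constants depending on `n` -/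
def StCRUDE (N : ℝ) : Prop := ∀ (K h : ℕ) (C : ℝ) (n : ℕ), 1 ≤ C → ∃ C' : ℝ, 0 ≤ C' ∧ ∀ (F : Amp C n h K) (Λ Q : ℝ),
  0 ≤ Λ → KTop F Λ → (∀ U : Finset Nd, ∑ S ∈ U, F.a K S ^ 2 ≤ Q) →
  ∀ X : Finset Nd, (∀ x ∈ X, x.b.τ = 0 ∧ 0 ≤ x.b.T ∧ x.b.T < 2 ^ (2 * K * n)) →
    ∑ x ∈ X, F.a 0 x ^ (2 + 2 / N) ≤ C' * Λ ^ (1 / N) * 2 ^ (4 * K * n) * Q

theorem core_aux {N : ℝ} (hRV : StRVA) (hP : StPROF N) (hC : StCRUDE N) (δ : ℝ) (hδ : 0 < δ) (hδ1 : δ ≤ 1) :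
    ∃ K h : ℕ, 1 ≤ K ∧ 2 ≤ h ∧ (h : ℝ) ≤ δ * K ∧ ∀ C : ℝ, 1 ≤ C → ∃ C' : ℝ, 0 ≤ C' ∧
      ∀ (n : ℕ) (F : Amp C n h K) (Λ Q : ℝ), 0 ≤ Λ → KTop F Λ → (∀ U : Finset Nd, ∑ S ∈ U, F.a K S ^ 2 ≤ Q) →
      ∀ X : Finset Nd, (∀ x ∈ X, x.b.τ = 0 ∧ 0 ≤ x.b.T ∧ x.b.T < 2 ^ (2 * K * n)) →
        ∑ x ∈ X, F.a 0 x ^ (2 + 2 / N) ≤ C' * 2 ^ (δ * (K * n)) * Λ ^ (1 / N) * 2 ^ (4 * K * n) * Q := by
  obtain ⟨C0, κ, hC0, hκ, hκ1, hP⟩ := hP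
  obtain ⟨c1, K0, hc1, hc1w, hK0, hRV⟩ := hRV (N + 1) C0 κ (δ / 2) (δ / 4) hC0 hκ hκ1 (by positivity) (by positivity)
  obtain ⟨K1, hK1, hP⟩ := hP δ (δ / 4) c1 hδ hδ1 (by positivity) hc1 hc1w
  obtain ⟨K2, hK2⟩ := exists_nat_gt (2 / δ)
  set K := max K2 (max K0 K1) with hK
  have hKK2 : (K2 : ℝ) ≤ K := by exact_mod_cast le_max_left _ _
  have hKK0 : K0 ≤ K := (le_max_left _ _).trans (le_max_right _ _)
  have hKK1 : K1 ≤ K := (le_max_right _ _).trans (le_max_right _ _)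
  have hδK : 2 < δ * K := by
    have := (div_lt_iff₀ hδ).1 hK2
    nlinarith
  set h := ⌈δ * K / 2⌉₊ with hh
  have h1 : δ * K / 2 ≤ h := Nat.le_ceil _
  have h2 : (h : ℝ) < δ * K / 2 + 1 := Nat.ceil_lt_add_one (by positivity)
  have h3 : 2 ≤ h := by
    have : (1 : ℝ) < h := by linarith
    have : 1 < h := by exact_mod_cast this
    omega
  have h4 : (h : ℝ) ≤ δ * K := by linarith
  refine ⟨K, h, hK0.trans hKK0, h3, h4, fun C hC1 => ?_⟩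
  obtain ⟨n0, hn0⟩ := hP K h hKK1 h3 (by linarith) h4 C hC1
  choose c hc0 hc using fun n => hC K h C n hC1
  refine ⟨1 + ∑ n ∈ Finset.range n0, c n, ?_, ?_⟩
  · have : 0 ≤ ∑ n ∈ Finset.range n0, c n := Finset.sum_nonneg fun n _ => hc0 n
    linarith
  intro n F Λ Q hΛ0 hΛ hQ X hX
  have hQ0 : 0 ≤ Q := by simpa using hQ ∅
  have hL : 0 ≤ Λ ^ (1 / N) := Real.rpow_nonneg hΛ0 _
  have hs : 0 ≤ ∑ n ∈ Finset.range n0, c n := Finset.sum_nonneg fun n _ => hc0 n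
  have h1 : (1 : ℝ) ≤ 2 ^ (δ * (K * n)) := by
    apply Real.one_le_rpow (by norm_num)
    positivity
  by_cases hn : n < n0
  · refine (hc n F Λ Q hΛ0 hΛ hQ X hX).trans ?_
    have h2 : c n ≤ (1 + ∑ n ∈ Finset.range n0, c n) * 2 ^ (δ * (K * n)) := by
      have h3 : c n ≤ ∑ n ∈ Finset.range n0, c n :=
        Finset.single_le_sum (f := c) (fun n _ => hc0 n) (Finset.mem_range.2 hn)
      nlinarith [hc0 n]
    gcongr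
  · by_contra hcon
    push Not at hcon
    have h2 : 2 ^ (δ * (K * n)) * Λ ^ (1 / N) * 2 ^ (4 * K * n) * Q < ∑ x ∈ X, F.a 0 x ^ (2 + 2 / N) := by
      refine lt_of_le_of_lt ?_ hcon
      have h3 : (2 : ℝ) ^ (δ * (K * n)) ≤ (1 + ∑ n ∈ Finset.range n0, c n) * 2 ^ (δ * (K * n)) := by
        nlinarith
      gcongr
    obtain ⟨V, E, M, m, α, g, hprof, hv⟩ := hn0 n (not_lt.1 hn) F Λ Q hΛ0 hΛ hQ X hX h2
    have := hRV K hKK0 V E M m α g hprof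
    linarith

theorem core_of {N : ℝ} (hRV : StRVA) (hP : StPROF N) (hC : StCRUDE N) : StCORE N := by
  intro δ hδ
  obtain ⟨K, h, hK, h2, hh, H⟩ := core_aux hRV hP hC (min δ 1) (lt_min hδ one_pos) (min_le_right _ _)
  refine ⟨K, h, hK, h2, hh.trans (mul_le_mul_of_nonneg_right (min_le_left _ _) (Nat.cast_nonneg _)), fun C hC1 => ?_⟩
  obtain ⟨C', hC', H⟩ := H C hC1
  refine ⟨C', hC', fun n F Λ Q hΛ0 hΛ hQ X hX => (H n F Λ Q hΛ0 hΛ hQ X hX).trans ?_⟩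
  have hQ0 : 0 ≤ Q := by simpa using hQ ∅
  have hL : 0 ≤ Λ ^ (1 / N) := Real.rpow_nonneg hΛ0 _
  have h3 : (2 : ℝ) ^ (min δ 1 * (K * n)) ≤ 2 ^ (δ * (K * n)) :=
    Real.rpow_le_rpow_of_exponent_le (by norm_num) (mul_le_mul_of_nonneg_right (min_le_left _ _) (by positivity))
  gcongr

end Vale.Agent.P106.W315
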